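import Vale.Agent.P052.Math3

/-
Borsuk's conjecture fails in dimension 63: a finite subset of R^63 of positive diameter that is
not a union of 64 subsets of strictly smaller diameter.
-/

theorem Vale.Agent.Results.P052.Dim63.result :
    ∃ Y : Set (EuclideanSpace ℝ (Fin 63)), Y.Finite ∧ 0 < Metric.diam Y ∧
      ¬ ∃ c : Fin 64 → Set (EuclideanSpace ℝ (Fin 63)), (⋃ i, c i) = Y ∧
        ∀ i, Metric.diam (c i) < Metric.diam Y :=
  Vale.Agent.P052.main_result
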